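import Vale.Agent.P275.H341.Psh

/-! # P275, lowest degree: row A2 -/

namespace Vale.Agent.P275.R2.H548

open Filter Topology Asymptotics Vale.Agent.P275.H341

/-- the partition with one part -/
def row1 (k : ℕ) : Fin k → ℕ := fun i => if (i : ℕ) = 0 then k else 0

namespace A2

/-- triangular numbers as sums -/
def tri (n : ℕ) : ℕ := ∑ t ∈ Finset.range n, (t + 1)

lemma tri_succ (n : ℕ) : tri (n + 1) = tri n + (n + 1) := by
  unfold tri
  rw [Finset.sum_range_succ]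

lemma two_tri (n : ℕ) : 2 * tri n = n * (n + 1) := by
  induction n with
  | zero => simp [tri]
  | succ n ih => rw [tri_succ, mul_add, ih]; ring

lemma tri_add (l m : ℕ) : tri (l + m) + Nat.choose m 2 = m * (l + m) + tri l := by
  induction l with
  | zero =>
    induction m with
    | zero => simp [tri]
    | succ m ih =>
      rw [Nat.zero_add] at ih ⊢
      rw [tri_succ, Nat.choose_succ_succ' m 1, Nat.choose_one_right]
      have : tri 0 = 0 := by simp [tri]
      rw [this] at ih ⊢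
      nlinarith
  | succ l ih =>
    have : l + 1 + m = (l + m) + 1 := by ring
    rw [this, tri_succ, tri_succ]
    nlinarith

lemma sum_choose (k : ℕ) : ∑ i : Fin k, Nat.choose (k - 1 - i) 2 = Nat.choose k 3 := by
  rw [Fin.sum_univ_eq_sum_range (fun i => Nat.choose (k - 1 - i) 2) k,
    Finset.sum_range_reflect (fun i => Nat.choose i 2) k]
  induction k with
  | zero => simp
  | succ k ih => rw [Finset.sum_range_succ, ih, Nat.choose_succ_succ' k 2]; ring

/-- the degree -/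
def deg {k : ℕ} (lam : Fin k → ℕ) : ℕ := ∑ i, tri (lam i)

lemma deg_eq {k : ℕ} (lam : Fin k → ℕ) :
    Nat.choose k 3 + ∑ i : Fin k, tri (lam i + (k - 1 - i)) =
      ∑ i : Fin k, (k - 1 - i) * (lam i + (k - 1 - i)) + deg lam := by
  rw [← sum_choose k, ← Finset.sum_add_distrib, deg, ← Finset.sum_add_distrib]
  apply Finset.sum_congr rfl
  intro i _
  rw [add_comm]
  exact tri_add _ _

lemma norm_le {k : ℕ} {lam : Fin k → ℕ} (hl : ∀ i j : Fin k, i ≤ j → lam j ≤ lam i) {r : ℝ}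
    (hr : 2 ≤ r) :
    ‖hk (r : ℂ) lam‖ ≤ 2 ^ (∑ i : Fin k, (k - 1 - (i : ℕ))) * r ^ deg lam := by
  have hr0 : 0 < r := by linarith
  have hr1 : 1 ≤ r := by linarith
  unfold hk
  rw [norm_div, norm_mul, norm_pow, Complex.norm_real, Real.norm_eq_abs, abs_of_pos hr0]
  have hnum : ‖∏ i : Fin k, ∏ t ∈ Finset.range (lam i + (k - 1 - i)), ((r : ℂ) ^ (t + 1) - 1)‖
      ≤ r ^ (∑ i : Fin k, tri (lam i + (k - 1 - i))) := by
    rw [norm_prod, ← Finset.prod_pow_eq_pow_sum]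
    apply Finset.prod_le_prod (fun _ _ => norm_nonneg _)
    intro i _
    rw [norm_prod]
    unfold tri
    rw [← Finset.prod_pow_eq_pow_sum]
    apply Finset.prod_le_prod (fun _ _ => norm_nonneg _)
    intro t _
    have e : ((r : ℂ) ^ (t + 1) - 1) = ((r ^ (t + 1) - 1 : ℝ) : ℂ) := by push_cast; ring
    have h1 : 1 ≤ r ^ (t + 1) := one_le_pow₀ hr1
    rw [e, Complex.norm_real, Real.norm_eq_abs, abs_of_nonneg (by linarith)]
    linarith
  have hden : r ^ (∑ i : Fin k, (k - 1 - i) * (lam i + (k - 1 - i))) /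
      2 ^ (∑ i : Fin k, (k - 1 - (i : ℕ))) ≤
      ‖∏ i : Fin k, ∏ j ∈ Finset.Ioi i,
        ((r : ℂ) ^ (lam i + (k - 1 - i)) - (r : ℂ) ^ (lam j + (k - 1 - j)))‖ := by
    rw [norm_prod, ← Finset.prod_pow_eq_pow_sum, ← Finset.prod_pow_eq_pow_sum,
      ← Finset.prod_div_distrib]
    apply Finset.prod_le_prod (fun _ _ => by positivity)
    intro i _
    have hc : (Finset.Ioi i).card = k - 1 - i := Fin.card_Ioi i
    rw [norm_prod]
    have e : r ^ ((k - 1 - (i : ℕ)) * (lam i + (k - 1 - i))) / 2 ^ (k - 1 - (i : ℕ)) =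
        ∏ _j ∈ Finset.Ioi i, (r ^ (lam i + (k - 1 - i)) / 2) := by
      rw [Finset.prod_const, hc, div_pow, ← pow_mul, mul_comm (lam i + (k - 1 - i))]
    rw [e]
    apply Finset.prod_le_prod (fun _ _ => by positivity)
    intro j hj
    rw [Finset.mem_Ioi] at hj
    have hij : (i : ℕ) < (j : ℕ) := hj
    have hjk : (j : ℕ) < k := j.2
    have hlam := hl i j hj.le
    have hlt : lam j + (k - 1 - j) + 1 ≤ lam i + (k - 1 - i) := by omega
    have e2 : ((r : ℂ) ^ (lam i + (k - 1 - i)) - (r : ℂ) ^ (lam j + (k - 1 - j))) =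
        ((r ^ (lam i + (k - 1 - i)) - r ^ (lam j + (k - 1 - j)) : ℝ) : ℂ) := by push_cast; ring
    rw [e2, Complex.norm_real, Real.norm_eq_abs]
    refine le_trans ?_ (le_abs_self _)
    have h3 : r ^ (lam j + (k - 1 - j) + 1) ≤ r ^ (lam i + (k - 1 - i)) :=
      pow_le_pow_right₀ hr1 hlt
    rw [pow_succ] at h3
    have h4 : 0 < r ^ (lam j + (k - 1 - j)) := by positivity
    nlinarith
  have hden0 : 0 < r ^ (∑ i : Fin k, (k - 1 - i) * (lam i + (k - 1 - i))) /
      2 ^ (∑ i : Fin k, (k - 1 - (i : ℕ))) := by positivity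
  calc r ^ (Nat.choose k 3) *
        ‖∏ i : Fin k, ∏ t ∈ Finset.range (lam i + (k - 1 - i)), ((r : ℂ) ^ (t + 1) - 1)‖ /
        ‖∏ i : Fin k, ∏ j ∈ Finset.Ioi i,
          ((r : ℂ) ^ (lam i + (k - 1 - i)) - (r : ℂ) ^ (lam j + (k - 1 - j)))‖
      ≤ r ^ (Nat.choose k 3) * r ^ (∑ i : Fin k, tri (lam i + (k - 1 - i))) /
        (r ^ (∑ i : Fin k, (k - 1 - i) * (lam i + (k - 1 - i))) /
          2 ^ (∑ i : Fin k, (k - 1 - (i : ℕ)))) := by
        apply div_le_div₀ (by positivity) _ hden0 hden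
        exact mul_le_mul_of_nonneg_left hnum (by positivity)
    _ = 2 ^ (∑ i : Fin k, (k - 1 - (i : ℕ))) * r ^ deg lam := by
        rw [← pow_add, deg_eq, pow_add]
        have : (r ^ (∑ i : Fin k, (k - 1 - i) * (lam i + (k - 1 - i)))) ≠ 0 := by positivity
        field_simp

lemma lt_of_ne {k : ℕ} {lam : Fin k → ℕ} (hs : ∑ i, lam i = k)
    (hl : ∀ i j : Fin k, i ≤ j → lam j ≤ lam i) (hne : lam ≠ row1 k) (i : Fin k) :
    lam i + 1 ≤ k := by
  by_contra hcon
  have hk0 : 0 < k := lt_of_le_of_lt (Nat.zero_le _) i.2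
  have h0 : lam i ≤ lam ⟨0, hk0⟩ := hl ⟨0, hk0⟩ i (by
    rw [Fin.le_def]; exact Nat.zero_le _)
  have hsum := Finset.add_sum_erase Finset.univ lam (Finset.mem_univ (⟨0, hk0⟩ : Fin k))
  rw [hs] at hsum
  have hrest : ∑ x ∈ Finset.univ.erase (⟨0, hk0⟩ : Fin k), lam x = 0 := by omega
  rw [Finset.sum_eq_zero_iff] at hrest
  apply hne
  funext j
  unfold row1
  split_ifs with hj
  · have : j = ⟨0, hk0⟩ := Fin.ext hj
    rw [this]; omega
  · apply hrest
    rw [Finset.mem_erase]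
    refine ⟨?_, Finset.mem_univ _⟩
    intro h; apply hj; rw [h]

lemma deg_le {k : ℕ} {lam : Fin k → ℕ} (hs : ∑ i, lam i = k)
    (hlt : ∀ i, lam i + 1 ≤ k) (hk : 2 ≤ k) : deg lam ≤ k * (k + 1) / 2 - 1 := by
  have h1 : 2 * deg lam ≤ k * k := by
    unfold deg
    rw [Finset.mul_sum]
    calc ∑ i, 2 * tri (lam i) = ∑ i, lam i * (lam i + 1) :=
          Finset.sum_congr rfl (fun i _ => two_tri _)
      _ ≤ ∑ i, lam i * k := Finset.sum_le_sum (fun i _ => Nat.mul_le_mul_left _ (hlt i))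
      _ = k * k := by rw [← Finset.sum_mul, hs]
  have h2 : k * (k + 1) = k * k + k := by ring
  rw [h2]
  omega

end A2

/-- ROW A2 -/
theorem rowA2 {k d : ℕ} (hd : 1 ≤ d) {lam : Fin k → ℕ} (hl : lam ∈ Pt k) (hne : lam ≠ row1 k) :
    (fun x : ℝ => hk ((x : ℂ) ^ d) lam) =O[atTop] fun x : ℝ => x ^ (d * (k * (k + 1) / 2 - 1)) := by
  unfold Pt at hl
  rw [Finset.mem_filter, Finset.Nat.mem_antidiagonalTuple] at hl
  obtain ⟨hs, hanti⟩ := hl
  have hlt := fun i => A2.lt_of_ne hs hanti hne i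
  have hk2 : 2 ≤ k := by
    by_contra hcon
    interval_cases k
    · exact hne (Subsingleton.elim _ _)
    · have h0 := hlt 0
      have : ∑ i, lam i = lam 0 := by simp
      omega
  have hdeg := A2.deg_le hs hlt hk2
  apply IsBigO.of_bound (2 ^ (∑ i : Fin k, (k - 1 - (i : ℕ))))
  filter_upwards [eventually_ge_atTop (2 : ℝ)] with x hx
  have hx1 : (1 : ℝ) ≤ x := by linarith
  have hr : 2 ≤ x ^ d := by
    calc (2 : ℝ) ≤ x := hx
      _ = x ^ 1 := (pow_one x).symm
      _ ≤ x ^ d := pow_le_pow_right₀ hx1 hd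
  have e : ((x : ℂ) ^ d) = ((x ^ d : ℝ) : ℂ) := by push_cast; ring
  rw [e]
  refine (A2.norm_le hanti hr).trans ?_
  rw [pow_mul, Real.norm_eq_abs, abs_of_nonneg (by positivity)]
  apply mul_le_mul_of_nonneg_left _ (by positivity)
  exact pow_le_pow_right₀ (by linarith) hdeg

end Vale.Agent.P275.R2.H548
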